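import Vale.Agent.P352Y.WL
import Vale.Agent.P352Z.P352X.R.JC.A2
import Vale.Agent.P352Z.P352X.R.KD.B
import Vale.Agent.P352Z.P352Y.WL.Gro

open Vale.Agent.P352G

/-!
# P352Y: the weight lemma
-/

noncomputable section

open MeasureTheory Filter Topology Complex Set Finset
open scoped Real SchwartzMap BoundedContinuousFunction

namespace Vale.Agent.P352Y.Wl

open Vale.Agent.P352 Vale.Agent.P352.GF Vale.Agent.P352.BW Vale.Agent.P352X Two
open Vale.Agent.P352.H496 (Wdg)
open Vale.Agent.P132 (ModData)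
open UniformSpace (Completion)

variable {D : Type*} [NormedAddCommGroup D] [InnerProductSpace ℂ D] [GrD D] {c : CtxZ D} {d : ℕ}
  {om om' : Sch →L[ℂ] Completion D}

lemma HomZ.key {d : ℝ} (h : HomZ c d om) (f g : Sch) (s : ℝ) : c.bt.Phi (ft (ev f)) (Bo c.Q s (om g)) =
    Bo c.Q s (c.bt.Phi (ft (ev g)) (om (bS s f))) := by
  rw [h.rel, Phi_WZ (k := scp (rexp (-s)) (rexp s)) (meas_scp _ _) ((grp_rowZ c).bo_ut s)
    (fun p y => md_scp_l p y) (bd_ft ⟨_, rfl⟩)]
  simp only [ft_bS, scp_scp _ (Real.exp_nonneg _) (Real.exp_nonneg _), ee, mul_comm (rexp (-s)),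
    scp_one]

lemma HomZ.lim (h : HomZ c d om) (f : Sch) {G : ℕ → Sch} (b : ∀ n p, ‖ft (ev (G n)) p‖ ≤ 1)
    (l : ∀ p, Tendsto (fun n => ft (ev (G n)) p) atTop (𝓝 1)) (z : ℂ) :
    Tendsto (fun n => c.bt.Phi (ft (ev f)) (Gs (fun s => Bo c.Q s (om (G n))) z)) atTop
      (𝓝 (Gs (fun s => Bo c.Q s (om (bS s f))) z)) := by
  have u := (grp_rowZ c).ugB
  have i : ∀ v, Integrable fun s => gz z s • Bo c.Q s v := fun v =>
    ((int_gz z 0).norm.mul_const ‖v‖).mono' ((cont_gz z).smul (u.cont v)).aestronglyMeasurable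
      (.of_forall fun s => by simp [norm_smul, u.norm])
  simp only [Gs, ← ContinuousLinearMap.integral_comp_comm _ (i _), map_smul]
  refine tendsto_integral_of_dominated_convergence _ (fun n => ((cont_gz z).smul
    ((c.bt.Phi _).continuous.comp (u.cont _))).aestronglyMeasurable) ((h.gr f).int z).norm
    (fun n => .of_forall fun s => ?_) (.of_forall fun s => ?_)
  · simp only [h.key, norm_smul, u.norm]
    gcongr
    exact (c.bt.norm_le (bd_ft ⟨_, rfl⟩) zero_le_one _ (.of_forall (b n))).trans_eq (one_mul _)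
  · simp only [h.key]
    have := c.bt.tendsto_Phi (fun n => bd_ft ⟨G n, rfl⟩) (SN.Bd.const 1) (v := om (bS s f))
      (.of_forall fun n => .of_forall (b n)) (.of_forall l)
    rw [c.bt.const_apply, one_smul] at this
    exact (((Bo c.Q s).continuous.tendsto _).comp this).const_smul _

variable (c) in
/-- locality in the wedge: the partner of `om g` is `J om' (g ∘ j)` -/
def LcZ (om om' : Sch →L[ℂ] Completion D) : Prop := ∀ g g' : Sch, HasCompactSupport g →
  tsupport g ⊆ Wdg va vb 0 → (∀ x, g' x = g (jr x)) →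
    Pr (c.N (Wdg va vb 0)) c.Om (om g) (c.J (om' g'))

lemma LcZ.shift (h : HomZ c d om) (h' : HomZ c d om') (l : LcZ c om om') (f : Sch) (z : ℂ) :
    Gs (fun s => Bo c.Q s (om (bS s f))) (z + π * I) = Gs (fun s => Bo c.Q s (om' (bS s f))) z := by
  obtain ⟨G, g1, g2, g3⟩ := ex_G
  have e : ∀ n p, ft (ev (pb conf_jr (G n))) p = ft (ev (G n)) (jr p) := fun n p =>
    (Two.ft_conf conf_jr (q := jr p) (fun z => md_jr p z) (ev (G n))).trans (by simp)
  refine tendsto_nhds_unique (h.lim f g2 g3 _) ((h'.lim f (G := fun n => pb conf_jr (G n))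
    (fun n p => e n p ▸ g2 n _) (fun p => by simpa only [e] using g3 _) z).congr fun n => ?_)
  have := kms c.E (l (G n) (pb conf_jr (G n)) (g1 n).1 (g1 n).2 fun _ => rfl) z
  simp only [← KDa.bo_eqZ, c.E.J_J] at this
  rw [this]

lemma bo_zeroZ (f : Sch) : Bo c.Q 0 (om (bS 0 f)) = om f := by
  rw [(grp_rowZ c).ugB.zero', show bS 0 f = f from SchwartzMap.ext fun x => by simp [bS_apply, scp_one]]
  rfl

/-- **The weight lemma.** -/
theorem wlZ (h : HomZ c d om) (h' : HomZ c d om') (l : LcZ c om om') (l' : LcZ c om' om) (f : Sch) :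
    ∃ a : ℕ → Completion D, a 0 = 0 ∧ ∀ t : ℝ,
      Bo c.Q t (om (bS t f)) = ∑ j ∈ range (2 * d), cexp ((j - d) * t) • a j ∧
      Bo c.Q t (om' (bS t f)) = ∑ j ∈ range (2 * d), ((-1) ^ (j + d) * cexp ((j - d) * t)) • a j :=
  gauss (h.gr f) (h'.gr f) (l.shift h h' f) (l'.shift h' h f)

end Vale.Agent.P352Y.Wl

end
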